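import Vale.Agent.P043.H113.Props

/-! Elementary lemmas about connected sets of cells. -/

namespace Vale.Agent.P043.H113

variable {d : ℕ}

theorem Adj.symm {x y : Fin d → ℤ} (h : Adj x y) : Adj y x := by
  obtain ⟨i, h⟩ := h
  exact ⟨i, h.symm⟩

theorem adj_single (x : Fin d → ℤ) (i : Fin d) : Adj x (x + Pi.single i 1) := ⟨i, Or.inl rfl⟩

theorem Adj.add {x y : Fin d → ℤ} (h : Adj x y) (v : Fin d → ℤ) : Adj (x + v) (y + v) := by
  obtain ⟨i, h | h⟩ := h
  · exact ⟨i, Or.inl (by rw [h]; abel)⟩
  · exact ⟨i, Or.inr (by rw [h]; abel)⟩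

theorem Conn.symm {S : Set (Fin d → ℤ)} {p q : Fin d → ℤ} (h : Conn S p q) : Conn S q p := by
  induction h with
  | refl => exact Relation.ReflTransGen.refl
  | tail _ h2 ih => exact Relation.ReflTransGen.head ⟨h2.2.1, h2.1, h2.2.2.symm⟩ ih

theorem Conn.trans {S : Set (Fin d → ℤ)} {p q r : Fin d → ℤ} (h : Conn S p q) (h' : Conn S q r) :
    Conn S p r := Relation.ReflTransGen.trans h h'

theorem Conn.refl {S : Set (Fin d → ℤ)} (p : Fin d → ℤ) : Conn S p p := Relation.ReflTransGen.refl

theorem Conn.of_adj {S : Set (Fin d → ℤ)} {p q : Fin d → ℤ} (hp : p ∈ S) (hq : q ∈ S)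
    (h : Adj p q) : Conn S p q := Relation.ReflTransGen.single ⟨hp, hq, h⟩

theorem Conn.mono {S T : Set (Fin d → ℤ)} (hST : S ⊆ T) {p q : Fin d → ℤ} (h : Conn S p q) :
    Conn T p q := by
  induction h with
  | refl => exact Relation.ReflTransGen.refl
  | tail _ h2 ih => exact ih.tail ⟨hST h2.1, hST h2.2.1, h2.2.2⟩

/-- translation (and more general maps preserving adjacency) -/
theorem Conn.map {S T : Set (Fin d → ℤ)} (g : (Fin d → ℤ) → (Fin d → ℤ))
    (hg : ∀ x ∈ S, g x ∈ T) (ha : ∀ x y, Adj x y → Adj (g x) (g y)) {p q : Fin d → ℤ}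
    (h : Conn S p q) : Conn T (g p) (g q) := by
  induction h with
  | refl => exact Relation.ReflTransGen.refl
  | tail _ h2 ih => exact ih.tail ⟨hg _ h2.1, hg _ h2.2.1, ha _ _ h2.2.2⟩

/-- straight segment in direction `+e_i` -/
theorem Conn.line {S : Set (Fin d → ℤ)} (p : Fin d → ℤ) (i : Fin d) (n : ℕ)
    (h : ∀ t : ℕ, t ≤ n → p + Pi.single i (t : ℤ) ∈ S) : Conn S p (p + Pi.single i (n : ℤ)) := by
  induction n with
  | zero => simpa using Conn.refl p
  | succ n ih =>
    refine (ih fun t ht => h t (by omega)).trans (Conn.of_adj (h n (by omega)) (h (n + 1) le_rfl) ?_)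
    refine ⟨i, Or.inl ?_⟩
    rw [add_assoc, ← Pi.single_add]
    push_cast
    rfl

/-- straight segment from `p` to `q` which differ in the coordinate `i` only -/
theorem Conn.seg {S : Set (Fin d → ℤ)} {p q : Fin d → ℤ} (i : Fin d)
    (hpq : ∀ j, j ≠ i → p j = q j)
    (h : ∀ t : ℤ, min (p i) (q i) ≤ t → t ≤ max (p i) (q i) → Function.update p i t ∈ S) :
    Conn S p q := by
  have key : ∀ p q : Fin d → ℤ, p i ≤ q i → (∀ j, j ≠ i → p j = q j) →
      (∀ t : ℤ, p i ≤ t → t ≤ q i → Function.update p i t ∈ S) → Conn S p q := by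
    intro p q hle hpq h
    have h1 := Conn.line (S := S) p i (q i - p i).toNat (fun t ht => by
      have h2 : p + Pi.single i (t : ℤ) = Function.update p i (p i + t) := by
        funext j
        by_cases hj : j = i
        · subst hj; simp
        · simp [hj]
      rw [h2]
      exact h _ (by omega) (by omega))
    have h3 : p + Pi.single i (((q i - p i).toNat : ℕ) : ℤ) = q := by
      funext j
      by_cases hj : j = i
      · subst hj
        simp only [Pi.add_apply, Pi.single_eq_same]
        omega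
      · simp only [Pi.add_apply, Pi.single_eq_of_ne hj, add_zero]
        exact hpq j hj
    rwa [h3] at h1
  rcases le_total (p i) (q i) with hle | hle
  · exact key p q hle hpq fun t h1 h2 => h t (by omega) (by omega)
  · refine (key q p hle (fun j hj => (hpq j hj).symm) fun t h1 h2 => ?_).symm
    have h3 : Function.update q i t = Function.update p i t := by
      funext j
      by_cases hj : j = i
      · subst hj; simp
      · simp only [Function.update_of_ne hj]
        exact (hpq j hj).symm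
    rw [h3]
    exact h t (by omega) (by omega)

/-- a set is connected when all its points are joined to one of them -/
theorem IsConn.of_base {S : Set (Fin d → ℤ)} {o : Fin d → ℤ} (ho : o ∈ S)
    (h : ∀ p ∈ S, Conn S o p) : IsConn S :=
  ⟨⟨o, ho⟩, fun p hp q hq => (h p hp).symm.trans (h q hq)⟩

/-- the link with Mathlib's connected graphs -/
theorem IsConn.connectedCells {S : Set (Fin d → ℤ)} (h : IsConn S) : ConnectedCells S := by
  obtain ⟨⟨o, ho⟩, hc⟩ := h
  have key : ∀ p q : Fin d → ℤ, (hp : p ∈ S) → Conn S p q → ∃ hq : q ∈ S,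
      ((nearest d).induce S).Reachable ⟨p, hp⟩ ⟨q, hq⟩ := by
    intro p q hp hpq
    induction hpq with
    | refl => exact ⟨hp, SimpleGraph.Reachable.refl _⟩
    | tail _ h2 ih =>
      obtain ⟨hb, hr⟩ := ih
      refine ⟨h2.2.1, hr.trans (SimpleGraph.Adj.reachable ?_)⟩
      exact h2.2.2
  have : Nonempty S := ⟨⟨o, ho⟩⟩
  refine ⟨fun a b => ?_⟩
  obtain ⟨hb, hr⟩ := key a b a.2 (hc a a.2 b b.2)
  exact hr

end Vale.Agent.P043.H113
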