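import Mathlib.Combinatorics.SimpleGraph.Connectivity.Connected
import Vale.Agent.P043.Defs
import Vale.Agent.P043.Eu.Defs

/-! Definitions used in the statement of `P043.ConnectedTiles`. -/

namespace Vale.Agent.P043.H113

/-- The nearest neighbour graph of `ℤ^d`: `x` and `y` are adjacent when they differ by one
standard unit vector. -/
def nearest (d : ℕ) : SimpleGraph (Fin d → ℤ) where
  Adj x y := ∃ i : Fin d, y = x + Pi.single i 1 ∨ x = y + Pi.single i 1
  symm := ⟨fun _ _ ⟨i, h⟩ => ⟨i, h.symm⟩⟩
  loopless := ⟨fun x ⟨i, h⟩ => by
    rcases h with h | h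
    all_goals
      have := congrFun h i
      simp at this⟩

/-- The set `F` of cells of `ℤ^d` is connected: the nearest neighbour graph induced on `F` is
connected. -/
def ConnectedCells {d : ℕ} (F : Set (Fin d → ℤ)) : Prop := ((nearest d).induce F).Connected

end Vale.Agent.P043.H113
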