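import Vale.Agent.P043.H113.Defs

/-! Blocks of the proof of `P043.ConnectedTiles`. -/

namespace Vale.Agent.P043.H113

/-- nearest neighbours -/
def Adj {d : ℕ} (x y : Fin d → ℤ) : Prop := ∃ i : Fin d, y = x + Pi.single i 1 ∨ x = y + Pi.single i 1

/-- `p` and `q` are joined by a nearest neighbour path inside `S` -/
def Conn {d : ℕ} (S : Set (Fin d → ℤ)) : (Fin d → ℤ) → (Fin d → ℤ) → Prop :=
  Relation.ReflTransGen (fun a b => a ∈ S ∧ b ∈ S ∧ Adj a b)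

/-- connected set of cells -/
def IsConn {d : ℕ} (S : Set (Fin d → ℤ)) : Prop :=
  S.Nonempty ∧ ∀ p ∈ S, ∀ q ∈ S, Conn S p q

/-- (1) coarse self-avoiding path in the torus `(ℤ/m)^3` whose lift visits all boxes `m w + [0,m)^3` -/
def StPath : Prop :=
  ∀ T : Finset (Fin 3 → ℤ), ∃ m : ℕ, 3 ≤ m ∧ ∃ V : Finset (Fin 3 → ℤ),
    IsConn (V : Set (Fin 3 → ℤ)) ∧
    (∀ Q ∈ V, ∀ R ∈ V, (∀ i, (m : ℤ) ∣ Q i - R i) → Q = R) ∧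
    ∀ w, w = 0 ∨ w ∈ T → ∃ Q ∈ V, ∃ b : Fin 3, Q + Pi.single b 1 ∈ V ∧
      ∀ i, (m : ℤ) * w i ≤ Q i ∧ Q i < (m : ℤ) * w i + m

/-- (2) connected fundamental domain `W` of `k ℤ^3` such that `W + k F` is connected -/
def StDom : Prop :=
  ∀ F : Finset (Fin 3 → ℤ), F.Nonempty → ∃ k : ℕ, 1 ≤ k ∧ ∃ W : Finset (Fin 3 → ℤ),
    (∀ p : Fin 3 → ℤ, ∃! w, w ∈ W ∧ ∀ i, (k : ℤ) ∣ p i - w i) ∧
    IsConn (W : Set (Fin 3 → ℤ)) ∧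
    IsConn {p : Fin 3 → ℤ | ∃ w ∈ W, ∃ f ∈ F, p = w + (k : ℤ) • f}

/-- (3) labelled jigsaw: decorated cubes `K p + D p`, where `D p` depends on `p` modulo `k` only -/
def StJig : Prop :=
  ∀ k : ℕ, 1 ≤ k → ∃ K : ℕ, 1 ≤ K ∧ ∃ D : (Fin 3 → ℤ) → Finset (Fin 3 → ℤ),
    (∀ p q : Fin 3 → ℤ, (∀ i, (k : ℤ) ∣ p i - q i) → D p = D q) ∧
    (∀ x : Fin 3 → ℤ, ∃! p : Fin 3 → ℤ, x - (K : ℤ) • p ∈ D p) ∧
    (∀ p, IsConn (D p : Set (Fin 3 → ℤ))) ∧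
    (∀ (p : Fin 3 → ℤ) (b : Fin 3), ∃ x ∈ D p, ∃ y ∈ D (p + Pi.single b 1),
      Adj (x + (K : ℤ) • p) (y + (K : ℤ) • (p + Pi.single b 1))) ∧
    ∀ (ι : Type) (pos typ : ι → (Fin 3 → ℤ)),
      (∀ x : Fin 3 → ℤ, ∃! i : ι, x - pos i ∈ D (typ i)) →
      ∀ i i' : ι, ∃ z : Fin 3 → ℤ, pos i' = pos i + (K : ℤ) • z ∧
        ∀ j, (k : ℤ) ∣ typ i' j - typ i j - z j

/-- (4) a connected tile of `ℤ^3` without periodic tilings -/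
def StThree : Prop :=
  ∃ F : Finset (Fin 3 → ℤ), IsConn (F : Set (Fin 3 → ℤ)) ∧ (∃ A, IsTiling A F) ∧
    ∀ A, IsTiling A F → ¬ IsPeriodic A

/-- (5) all dimensions -/
def StDisc : Prop :=
  ∀ d : ℕ, 3 ≤ d → ∃ F : Finset (Fin d → ℤ), IsConn (F : Set (Fin d → ℤ)) ∧
    (∃ A, IsTiling A F) ∧ ∀ A, IsTiling A F → ¬ IsPeriodic A

open MeasureTheory in
/-- (6) from `ℤ^d` to `ℝ^d`, connected version -/
def StEucl : Prop :=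
  ∀ d : ℕ, 3 ≤ d → ∀ F : Finset (Fin d → ℤ), IsConn (F : Set (Fin d → ℤ)) →
    (∃ A, IsTiling A F) → (∀ A, IsTiling A F → ¬ IsPeriodic A) →
    ∃ Om : Set (Fin d → ℝ), Bornology.IsBounded Om ∧ IsOpen Om ∧ IsConnected Om ∧
      0 < volume Om ∧ (∃ A, Eu.TilesAE Om A) ∧ ∀ A, Eu.TilesAE Om A → ¬ Eu.LatticePeriodic A

end Vale.Agent.P043.H113
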